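import Vale.Agent.P227.M.Bas

/-! # P227/M/ID/KL: almost everywhere convergence calculus

`Cv f g`: `f k → g` a.e., bounded on balls. `CD f g`: the same with all first derivatives. Both are
closed under the algebraic operations, determinants, inverses and compositions. -/

open MeasureTheory Filter Topology
open scoped BigOperators

namespace Vale.Agent.P227.M.KL

variable {n : ℕ}

/-- a.e. convergence with bounds on balls -/
structure Cv (f : ℕ → E n → ℝ) (g : E n → ℝ) : Prop where
  meas : ∀ k, AEStronglyMeasurable (f k) volume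
  lim : ∀ᵐ x, Tendsto (fun k => f k x) atTop (𝓝 (g x))
  bdd : ∀ R : ℝ, ∃ B : ℝ, ∀ k x, ‖x‖ ≤ R → |f k x| ≤ B

theorem bdd_of_continuous {g : E n → ℝ} (hg : Continuous g) (R : ℝ) :
    ∃ B : ℝ, ∀ x, ‖x‖ ≤ R → |g x| ≤ B := by
  obtain ⟨B, hB⟩ :=
    (isCompact_closedBall (0 : E n) R).exists_bound_of_continuousOn hg.continuousOn
  exact ⟨B, fun x hx => by simpa using hB x (by simpa using hx)⟩

namespace Cv

variable {f f' : ℕ → E n → ℝ} {g g' : E n → ℝ}

theorem const (hg : Continuous g) : Cv (fun _ => g) g where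
  meas _ := hg.aestronglyMeasurable
  lim := Eventually.of_forall fun _ => tendsto_const_nhds
  bdd R := by
    obtain ⟨B, hB⟩ := bdd_of_continuous hg R
    exact ⟨B, fun _ x hx => hB x hx⟩

theorem add (h : Cv f g) (h' : Cv f' g') :
    Cv (fun k x => f k x + f' k x) (fun x => g x + g' x) where
  meas k := (h.meas k).add (h'.meas k)
  lim := by
    filter_upwards [h.lim, h'.lim] with x hx hx'
    exact hx.add hx'
  bdd R := by
    obtain ⟨B, hB⟩ := h.bdd R
    obtain ⟨B', hB'⟩ := h'.bdd R
    exact ⟨B + B', fun k x hx => (abs_add_le _ _).trans (add_le_add (hB k x hx) (hB' k x hx))⟩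

theorem mul (h : Cv f g) (h' : Cv f' g') :
    Cv (fun k x => f k x * f' k x) (fun x => g x * g' x) where
  meas k := (h.meas k).mul (h'.meas k)
  lim := by
    filter_upwards [h.lim, h'.lim] with x hx hx'
    exact hx.mul hx'
  bdd R := by
    obtain ⟨B, hB⟩ := h.bdd R
    obtain ⟨B', hB'⟩ := h'.bdd R
    refine ⟨B * B', fun k x hx => ?_⟩
    rw [abs_mul]
    exact mul_le_mul (hB k x hx) (hB' k x hx) (abs_nonneg _) ((abs_nonneg _).trans (hB k x hx))

theorem neg (h : Cv f g) : Cv (fun k x => -f k x) (fun x => -g x) where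
  meas k := (h.meas k).neg
  lim := by
    filter_upwards [h.lim] with x hx
    exact hx.neg
  bdd R := by
    obtain ⟨B, hB⟩ := h.bdd R
    exact ⟨B, fun k x hx => by rw [abs_neg]; exact hB k x hx⟩

theorem sub (h : Cv f g) (h' : Cv f' g') :
    Cv (fun k x => f k x - f' k x) (fun x => g x - g' x) := by
  have := h.add h'.neg
  simpa [sub_eq_add_neg] using this

theorem sum {ι : Type*} (s : Finset ι) {f : ι → ℕ → E n → ℝ} {g : ι → E n → ℝ}
    (h : ∀ i ∈ s, Cv (f i) (g i)) :
    Cv (fun k x => ∑ i ∈ s, f i k x) (fun x => ∑ i ∈ s, g i x) := by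
  classical
  induction s using Finset.induction_on with
  | empty => simpa using Cv.const (n := n) (g := fun _ => (0 : ℝ)) continuous_const
  | insert a s ha ih =>
    have h2 := (h a (Finset.mem_insert_self a s)).add
      (ih fun i hi => h i (Finset.mem_insert_of_mem hi))
    simpa [Finset.sum_insert ha] using h2

/-- dominated convergence -/
theorem integral (h : Cv f g) {R : ℝ} (hR : ∀ k x, R < ‖x‖ → f k x = 0) :
    Tendsto (fun k => ∫ x, f k x) atTop (𝓝 (∫ x, g x)) := by
  obtain ⟨B, hB⟩ := h.bdd R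
  refine tendsto_integral_of_dominated_convergence
    ((Metric.closedBall (0 : E n) R).indicator fun _ => B) h.meas ?_ ?_ h.lim
  · rw [integrable_indicator_iff Metric.isClosed_closedBall.measurableSet]
    exact integrableOn_const (isCompact_closedBall (0 : E n) R).measure_ne_top
  · refine fun k => Eventually.of_forall fun x => ?_
    by_cases hx : ‖x‖ ≤ R
    · rw [Set.indicator_of_mem (by simpa using hx)]
      exact hB k x hx
    · rw [Set.indicator_of_notMem (by simpa using hx), hR k x (not_le.1 hx), norm_zero]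

end Cv

/-- a.e. convergence of functions and of their first derivatives -/
structure CD (f : ℕ → E n → ℝ) (g : E n → ℝ) : Prop where
  diff : ∀ k, Differentiable ℝ (f k)
  gd : ∀ᵐ x, DifferentiableAt ℝ g x
  cv : Cv f g
  cd : ∀ c, Cv (fun k => pd c (f k)) (pd c g)

theorem meas_pd (f : E n → ℝ) (c : Fin n) : AEStronglyMeasurable (pd c f) volume :=
  (measurable_fderiv_apply_const ℝ f (ei c)).aestronglyMeasurable

theorem pd_add' {f g : E n → ℝ} {x : E n} (hf : DifferentiableAt ℝ f x)
    (hg : DifferentiableAt ℝ g x) (c : Fin n) :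
    pd c (fun x => f x + g x) x = pd c f x + pd c g x := by
  unfold pd
  have h : fderiv ℝ (fun x => f x + g x) x = fderiv ℝ f x + fderiv ℝ g x := fderiv_add hf hg
  rw [h]
  rfl

theorem pd_neg' {f : E n → ℝ} {x : E n} (c : Fin n) :
    pd c (fun x => -f x) x = -pd c f x := by
  unfold pd
  have h : fderiv ℝ (fun x => -f x) x = -fderiv ℝ f x := fderiv_neg
  rw [h]
  rfl

theorem pd_mul' {f g : E n → ℝ} {x : E n} (hf : DifferentiableAt ℝ f x)
    (hg : DifferentiableAt ℝ g x) (c : Fin n) :
    pd c (fun x => f x * g x) x = f x * pd c g x + pd c f x * g x := by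
  unfold pd
  have h : fderiv ℝ (fun x => f x * g x) x = f x • fderiv ℝ g x + g x • fderiv ℝ f x :=
    fderiv_mul hf hg
  rw [h]
  simp only [add_apply, smul_apply, smul_eq_mul]
  ring

theorem pd_comp' {f : E n → ℝ} {x : E n} (hf : DifferentiableAt ℝ f x) {φ : ℝ → ℝ} {d : ℝ}
    (hφ : HasDerivAt φ d (f x)) (c : Fin n) :
    pd c (fun x => φ (f x)) x = d * pd c f x := by
  unfold pd
  have h : HasFDerivAt (fun x => φ (f x)) (d • fderiv ℝ f x) x :=
    hφ.comp_hasFDerivAt x hf.hasFDerivAt
  rw [h.fderiv]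
  simp only [smul_apply, smul_eq_mul]

namespace CD

variable {f f' : ℕ → E n → ℝ} {g g' : E n → ℝ}

theorem const (hg : ContDiff ℝ 1 g) : CD (fun _ => g) g where
  diff _ := hg.differentiable (by norm_num)
  gd := Eventually.of_forall fun x => (hg.differentiable (by norm_num)) x
  cv := Cv.const hg.continuous
  cd c := Cv.const (contDiff_pd (k := 0) hg (by norm_num) c).continuous

theorem add (h : CD f g) (h' : CD f' g') :
    CD (fun k x => f k x + f' k x) (fun x => g x + g' x) where
  diff k := (h.diff k).add (h'.diff k)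
  gd := by
    filter_upwards [h.gd, h'.gd] with x hx hx'
    exact hx.add hx'
  cv := h.cv.add h'.cv
  cd c := by
    have h1 := (h.cd c).add (h'.cd c)
    refine ⟨fun k => meas_pd _ c, ?_, ?_⟩
    · filter_upwards [h1.lim, h.gd, h'.gd] with x hx hg1 hg2
      rw [pd_add' hg1 hg2]
      refine hx.congr fun k => ?_
      rw [pd_add' (h.diff k x) (h'.diff k x)]
    · intro R
      obtain ⟨B, hB⟩ := h1.bdd R
      refine ⟨B, fun k x hx => ?_⟩
      rw [pd_add' (h.diff k x) (h'.diff k x)]
      exact hB k x hx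

theorem neg (h : CD f g) : CD (fun k x => -f k x) (fun x => -g x) where
  diff k := (h.diff k).neg
  gd := by
    filter_upwards [h.gd] with x hx
    exact hx.neg
  cv := h.cv.neg
  cd c := by
    have h1 := (h.cd c).neg
    refine ⟨fun k => meas_pd _ c, ?_, ?_⟩
    · filter_upwards [h1.lim] with x hx
      rw [pd_neg']
      refine hx.congr fun k => ?_
      rw [pd_neg']
    · intro R
      obtain ⟨B, hB⟩ := h1.bdd R
      refine ⟨B, fun k x hx => ?_⟩
      rw [pd_neg']
      exact hB k x hx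

theorem sub (h : CD f g) (h' : CD f' g') :
    CD (fun k x => f k x - f' k x) (fun x => g x - g' x) := by
  have := h.add h'.neg
  simpa [sub_eq_add_neg] using this

theorem mul (h : CD f g) (h' : CD f' g') :
    CD (fun k x => f k x * f' k x) (fun x => g x * g' x) where
  diff k := (h.diff k).mul (h'.diff k)
  gd := by
    filter_upwards [h.gd, h'.gd] with x hx hx'
    exact hx.mul hx'
  cv := h.cv.mul h'.cv
  cd c := by
    have h1 := (h.cv.mul (h'.cd c)).add ((h.cd c).mul h'.cv)
    refine ⟨fun k => meas_pd _ c, ?_, ?_⟩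
    · filter_upwards [h1.lim, h.gd, h'.gd] with x hx hg1 hg2
      rw [pd_mul' hg1 hg2]
      refine hx.congr fun k => ?_
      rw [pd_mul' (h.diff k x) (h'.diff k x)]
    · intro R
      obtain ⟨B, hB⟩ := h1.bdd R
      refine ⟨B, fun k x hx => ?_⟩
      rw [pd_mul' (h.diff k x) (h'.diff k x)]
      exact hB k x hx

theorem sum {ι : Type*} (s : Finset ι) {f : ι → ℕ → E n → ℝ} {g : ι → E n → ℝ}
    (h : ∀ i ∈ s, CD (f i) (g i)) :
    CD (fun k x => ∑ i ∈ s, f i k x) (fun x => ∑ i ∈ s, g i x) := by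
  classical
  induction s using Finset.induction_on with
  | empty => simpa using CD.const (n := n) (g := fun _ => (0 : ℝ)) contDiff_const
  | insert a s ha ih =>
    have h2 := (h a (Finset.mem_insert_self a s)).add
      (ih fun i hi => h i (Finset.mem_insert_of_mem hi))
    simpa [Finset.sum_insert ha] using h2

theorem prod {ι : Type*} (s : Finset ι) {f : ι → ℕ → E n → ℝ} {g : ι → E n → ℝ}
    (h : ∀ i ∈ s, CD (f i) (g i)) :
    CD (fun k x => ∏ i ∈ s, f i k x) (fun x => ∏ i ∈ s, g i x) := by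
  classical
  induction s using Finset.induction_on with
  | empty => simpa using CD.const (n := n) (g := fun _ => (1 : ℝ)) contDiff_const
  | insert a s ha ih =>
    have h2 := (h a (Finset.mem_insert_self a s)).mul
      (ih fun i hi => h i (Finset.mem_insert_of_mem hi))
    simpa [Finset.prod_insert ha] using h2

/-- composition with a `C¹` function on a closed set -/
theorem comp (h : CD f g) {S : Set ℝ} (hS : IsClosed S) {φ φ' : ℝ → ℝ}
    (hφ : ∀ t ∈ S, HasDerivAt φ (φ' t) t) (hφ' : ContinuousOn φ' S)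
    (hm : ∀ k x, f k x ∈ S) : CD (fun k x => φ (f k x)) (fun x => φ (g x)) := by
  have hgS : ∀ᵐ x, g x ∈ S := by
    filter_upwards [h.cv.lim] with x hx
    exact hS.mem_of_tendsto hx (Eventually.of_forall fun k => hm k x)
  have hcont : ContinuousOn φ S := fun t ht => (hφ t ht).continuousAt.continuousWithinAt
  have hbd : ∀ (θ : ℝ → ℝ), ContinuousOn θ S → ∀ R : ℝ, ∃ B : ℝ, ∀ k x, ‖x‖ ≤ R →
      |θ (f k x)| ≤ B := by
    intro θ hθ R
    obtain ⟨B, hB⟩ := h.cv.bdd R
    have hK : IsCompact (S ∩ Set.Icc (-B) B) := (isCompact_Icc.inter_left hS)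
    obtain ⟨D, hD⟩ := hK.exists_bound_of_continuousOn (hθ.mono Set.inter_subset_left)
    refine ⟨D, fun k x hx => ?_⟩
    exact hD _ ⟨hm k x, abs_le.1 (hB k x hx)⟩
  have hd : ∀ k, Differentiable ℝ (fun x => φ (f k x)) := fun k x =>
    ((hφ _ (hm k x)).comp_hasFDerivAt x (h.diff k x).hasFDerivAt).differentiableAt
  refine ⟨hd, ?_, ⟨fun k => (hd k).continuous.aestronglyMeasurable, ?_, hbd φ hcont⟩, fun c => ?_⟩
  · filter_upwards [h.gd, hgS] with x hx hxS
    exact ((hφ _ hxS).comp_hasFDerivAt x hx.hasFDerivAt).differentiableAt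
  · filter_upwards [h.cv.lim, hgS] with x hx hxS
    exact (hφ _ hxS).continuousAt.tendsto.comp hx
  · refine ⟨fun k => meas_pd _ c, ?_, fun R => ?_⟩
    · filter_upwards [h.cv.lim, hgS, (h.cd c).lim, h.gd] with x hx hxS hx' hgd
      rw [pd_comp' hgd (hφ _ hxS)]
      have h2 : Tendsto (fun k => φ' (f k x)) atTop (𝓝 (φ' (g x))) :=
        (hφ' _ hxS).tendsto.comp
          (tendsto_nhdsWithin_iff.2 ⟨hx, Eventually.of_forall fun k => hm k x⟩)
      refine (h2.mul hx').congr fun k => ?_
      rw [pd_comp' (h.diff k x) (hφ _ (hm k x))]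
    · obtain ⟨B, hB⟩ := hbd φ' hφ' R
      obtain ⟨D, hD⟩ := (h.cd c).bdd R
      refine ⟨B * D, fun k x hx => ?_⟩
      rw [pd_comp' (h.diff k x) (hφ _ (hm k x)), abs_mul]
      exact mul_le_mul (hB k x hx) (hD k x hx) (abs_nonneg _) ((abs_nonneg _).trans (hB k x hx))

theorem exp (h : CD f g) : CD (fun k x => Real.exp (f k x)) (fun x => Real.exp (g x)) :=
  h.comp isClosed_univ (fun t _ => Real.hasDerivAt_exp t) Real.continuous_exp.continuousOn
    fun _ _ => Set.mem_univ _

theorem inv (h : CD f g) {δ : ℝ} (hδ : 0 < δ) (hm : ∀ k x, δ ≤ f k x) :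
    CD (fun k x => (f k x)⁻¹) (fun x => (g x)⁻¹) := by
  have hne : ∀ t ∈ Set.Ici δ, t ≠ 0 := fun t ht => (lt_of_lt_of_le hδ ht).ne'
  refine h.comp (S := Set.Ici δ) (φ := fun t => t⁻¹) (φ' := fun t => -(t ^ 2)⁻¹) isClosed_Ici
    (fun t ht => hasDerivAt_inv (hne t ht)) ?_ hm
  exact ((continuousOn_pow 2).inv₀ fun t ht => pow_ne_zero 2 (hne t ht)).neg

theorem log (h : CD f g) {δ : ℝ} (hδ : 0 < δ) (hm : ∀ k x, δ ≤ f k x) :
    CD (fun k x => Real.log (f k x)) (fun x => Real.log (g x)) := by
  have hne : ∀ t ∈ Set.Ici δ, t ≠ 0 := fun t ht => (lt_of_lt_of_le hδ ht).ne'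
  refine h.comp (S := Set.Ici δ) (φ := Real.log) (φ' := fun t => t⁻¹) isClosed_Ici
    (fun t ht => Real.hasDerivAt_log (hne t ht)) ?_ hm
  exact continuousOn_id.inv₀ fun t ht => hne t ht

variable {m : ℕ} {A : ℕ → E n → Matrix (Fin m) (Fin m) ℝ} {B : E n → Matrix (Fin m) (Fin m) ℝ}

theorem det (h : ∀ i j, CD (fun k x => A k x i j) (fun x => B x i j)) :
    CD (fun k x => (A k x).det) (fun x => (B x).det) := by
  simp only [Matrix.det_apply']
  refine CD.sum _ fun σ _ => ?_
  exact (CD.const contDiff_const).mul (CD.prod _ fun i _ => h _ _)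

theorem adjugate (h : ∀ i j, CD (fun k x => A k x i j) (fun x => B x i j)) (i j : Fin m) :
    CD (fun k x => (A k x).adjugate i j) (fun x => (B x).adjugate i j) := by
  simp only [Matrix.adjugate_apply]
  refine CD.det fun a b => ?_
  simp only [Matrix.updateRow_apply]
  by_cases hab : a = j
  · simp only [hab, if_true]
    exact CD.const contDiff_const
  · simp only [hab, if_false]
    exact h a b

theorem minv (h : ∀ i j, CD (fun k x => A k x i j) (fun x => B x i j)) {δ : ℝ} (hδ : 0 < δ)
    (hm : ∀ k x, δ ≤ (A k x).det) (i j : Fin m) :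
    CD (fun k x => (A k x)⁻¹ i j) (fun x => (B x)⁻¹ i j) := by
  have h1 : ∀ M : Matrix (Fin m) (Fin m) ℝ, M⁻¹ i j = (M.det)⁻¹ * M.adjugate i j := by
    intro M
    rw [Matrix.inv_def, Ring.inverse_eq_inv']
    rfl
  simp only [h1]
  exact ((CD.det h).inv hδ hm).mul (CD.adjugate h i j)

end CD

end Vale.Agent.P227.M.KL
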