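import Vale.Agent.P227.M.ID.LipMoll
import Vale.Agent.P227.M.ID.KL.Cv

/-! # P227/M/ID/KL: mollification of `ψ` -/

open MeasureTheory Filter Topology
open scoped BigOperators NNReal ContDiff

namespace Vale.Agent.P227.M.KL

open LipMoll

variable {n : ℕ}

/-- mollification on `E n` -/
noncomputable abbrev ml (k : ℕ) (w : E n → ℝ) : E n → ℝ := LipMoll.mol (volume : Measure (E n)) k w

theorem ml_apply (k : ℕ) (w : E n → ℝ) (x : E n) :
    ml k w x = ∫ y, (bp (E n) k).normed volume y * w (x - y) := by
  rw [ml, mol_apply]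
  rfl

theorem int_ml (k : ℕ) {w : E n → ℝ} (hw : Continuous w) (x : E n) :
    Integrable (fun y => (bp (E n) k).normed volume y * w (x - y)) := by
  have h1 : Continuous (fun y => (bp (E n) k).normed volume y * w (x - y)) :=
    (bp (E n) k).continuous_normed.mul (hw.comp (continuous_const.sub continuous_id))
  exact h1.integrable_of_hasCompactSupport ((bp (E n) k).hasCompactSupport_normed.mul_right)

theorem contDiff_ml (k : ℕ) {w : E n → ℝ} (hw : Continuous w) : ContDiff ℝ ∞ (ml k w) :=
  contDiff_mol volume k hw.locallyIntegrable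

theorem ml_ge (k : ℕ) {w : E n → ℝ} (hw : Continuous w) {c : ℝ} (hc : ∀ y, c ≤ w y) (x : E n) :
    c ≤ ml k w x := by
  rw [ml_apply]
  have h1 : ∫ y, (bp (E n) k).normed volume y * c = c := by
    rw [integral_mul_const, (bp (E n) k).integral_normed, one_mul]
  rw [← h1]
  refine integral_mono ((bp (E n) k).integrable_normed.mul_const c) (int_ml k hw x) fun y => ?_
  exact mul_le_mul_of_nonneg_left (hc _) ((bp (E n) k).nonneg_normed y)

theorem ml_le (k : ℕ) {w : E n → ℝ} (hw : Continuous w) {c : ℝ} (hc : ∀ y, w y ≤ c) (x : E n) :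
    ml k w x ≤ c := by
  rw [ml_apply]
  have h1 : ∫ y, (bp (E n) k).normed volume y * c = c := by
    rw [integral_mul_const, (bp (E n) k).integral_normed, one_mul]
  conv_rhs => rw [← h1]
  refine integral_mono (int_ml k hw x) ((bp (E n) k).integrable_normed.mul_const c) fun y => ?_
  exact mul_le_mul_of_nonneg_left (hc _) ((bp (E n) k).nonneg_normed y)

theorem normed_eq_zero (k : ℕ) {y : E n} (hy : 2 < ‖y‖) : (bp (E n) k).normed volume y = 0 := by
  have h2 : y ∉ Function.support ((bp (E n) k).normed (volume : Measure (E n))) := by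
    rw [(bp (E n) k).support_normed_eq, Metric.mem_ball, dist_zero_right, not_lt]
    exact (bp_rOut_le (E := E n) k).trans hy.le
  exact Function.notMem_support.1 h2

theorem abs_ml_le (k : ℕ) {w : E n → ℝ} {R B : ℝ}
    (hB : ∀ y, ‖y‖ ≤ R + 2 → |w y| ≤ B) {x : E n} (hx : ‖x‖ ≤ R) : |ml k w x| ≤ B := by
  rw [ml_apply, ← Real.norm_eq_abs]
  refine (norm_integral_le_of_norm_le ((bp (E n) k).integrable_normed.mul_const B)
    (Eventually.of_forall fun y => ?_)).trans ?_
  · rw [norm_mul, Real.norm_eq_abs, abs_of_nonneg ((bp (E n) k).nonneg_normed y)]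
    by_cases hy : 2 < ‖y‖
    · rw [normed_eq_zero k hy]
      simp
    · refine mul_le_mul_of_nonneg_left (hB _ ?_) ((bp (E n) k).nonneg_normed y)
      exact (norm_sub_le _ _).trans (add_le_add hx (not_lt.1 hy))
  · rw [integral_mul_const, (bp (E n) k).integral_normed, one_mul]

theorem ml_sum (k : ℕ) {ι : Type*} (s : Finset ι) {w : ι → E n → ℝ}
    (hw : ∀ i ∈ s, Continuous (w i)) (x : E n) :
    ml k (fun y => ∑ i ∈ s, w i y) x = ∑ i ∈ s, ml k (w i) x := by
  simp only [ml_apply, Finset.mul_sum]
  exact integral_finsetSum _ fun i hi => int_ml k (hw i hi) x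

theorem ml_mul_const (k : ℕ) (w : E n → ℝ) (a : ℝ) (x : E n) :
    ml k (fun y => w y * a) x = ml k w x * a := by
  rw [ml_apply, ml_apply, ← integral_mul_const]
  refine integral_congr_ae (Eventually.of_forall fun y => ?_)
  change _ * (_ * a) = _ * _ * a
  ring

theorem hasFDerivAt_ml (k : ℕ) {w : E n → ℝ} (hw : ContDiff ℝ 1 w) (x : E n) :
    HasFDerivAt (ml k w) (∫ y, (bp (E n) k).normed volume y • fderiv ℝ w (x - y)) x := by
  have hf : ml k w = fun x => ∫ y, (bp (E n) k).normed volume y * w (x - y) := by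
    funext x
    exact ml_apply k w x
  rw [hf]
  have hc : Continuous ((bp (E n) k).normed (volume : Measure (E n))) := (bp (E n) k).continuous_normed
  have hd : Continuous (fderiv ℝ w) := hw.continuous_fderiv (by norm_num)
  obtain ⟨M, hM⟩ := (isCompact_closedBall (0 : E n) (‖x‖ + 3)).exists_bound_of_continuousOn
    hd.continuousOn
  refine hasFDerivAt_integral_of_dominated_of_fderiv_le (s := Metric.ball x 1)
    (F := fun z y => (bp (E n) k).normed volume y * w (z - y))
    (F' := fun z y => (bp (E n) k).normed volume y • fderiv ℝ w (z - y))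
    (bound := fun y => (bp (E n) k).normed volume y * M) (Metric.ball_mem_nhds x one_pos)
    (Eventually.of_forall fun z => (int_ml k hw.continuous z).aestronglyMeasurable)
    (int_ml k hw.continuous x) ?_ ?_ ?_ ?_
  · exact (hc.smul (hd.comp (continuous_const.sub continuous_id))).aestronglyMeasurable
  · refine Eventually.of_forall fun y z hz => ?_
    rw [norm_smul, Real.norm_eq_abs, abs_of_nonneg ((bp (E n) k).nonneg_normed y)]
    by_cases hy : 2 < ‖y‖
    · rw [normed_eq_zero k hy]
      simp
    · refine mul_le_mul_of_nonneg_left (hM _ ?_) ((bp (E n) k).nonneg_normed y)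
      rw [Metric.mem_closedBall, dist_zero_right]
      rw [Metric.mem_ball, dist_eq_norm] at hz
      have h1 : ‖z - y‖ ≤ ‖x‖ + ‖z - x‖ + ‖y‖ := by
        have h2 : z - y = x + (z - x) - y := by abel
        rw [h2]
        exact (norm_sub_le _ _).trans (by gcongr; exact norm_add_le _ _)
      linarith
  · exact (bp (E n) k).integrable_normed.mul_const _
  · refine Eventually.of_forall fun y z _ => ?_
    have h4 : HasFDerivAt w (fderiv ℝ w (z - y)) (z - y) :=
      ((hw.differentiable (by norm_num)) (z - y)).hasFDerivAt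
    have h5 : HasFDerivAt (fun z : E n => z - y) (ContinuousLinearMap.id ℝ (E n)) z :=
      (hasFDerivAt_id z).sub_const y
    have h6 := h4.comp z h5
    rw [ContinuousLinearMap.comp_id] at h6
    exact h6.const_mul _

theorem pd_ml (k : ℕ) {w : E n → ℝ} (hw : ContDiff ℝ 1 w) (i : Fin n) :
    pd i (ml k w) = ml k (pd i w) := by
  funext x
  rw [pd, (hasFDerivAt_ml k hw x).fderiv, ml_apply]
  have hint : Integrable (fun y => (bp (E n) k).normed volume y • fderiv ℝ w (x - y)) := by
    have hd : Continuous (fderiv ℝ w) := hw.continuous_fderiv (by norm_num)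
    have h1 : Continuous (fun y => (bp (E n) k).normed volume y • fderiv ℝ w (x - y)) :=
      (bp (E n) k).continuous_normed.smul (hd.comp (continuous_const.sub continuous_id))
    exact h1.integrable_of_hasCompactSupport ((bp (E n) k).hasCompactSupport_normed.smul_right)
  rw [ContinuousLinearMap.integral_apply hint]
  rfl

theorem hess_ml (k : ℕ) {w : E n → ℝ} (hw : ContDiff ℝ 2 w) (x : E n) (i j : Fin n) :
    hess (ml k w) x i j = ml k (fun y => hess w y i j) x := by
  have h1 : ContDiff ℝ 1 w := hw.of_le (by norm_num)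
  have h2 : ContDiff ℝ 1 (pd j w) := contDiff_pd hw (by norm_num) j
  unfold hess
  rw [pd_ml k h1, pd_ml k h2]

theorem qf_ml (k : ℕ) {w : E n → ℝ} (hw : ContDiff ℝ 2 w) (x v : E n) :
    qf (hess (ml k w) x) v = ml k (fun y => qf (hess w y) v) x := by
  have hc : ∀ i j, Continuous fun y => hess w y i j * v i * v j := fun i j =>
    ((continuous_hess hw i j).mul continuous_const).mul continuous_const
  unfold qf
  rw [ml_sum k _ (fun i _ => continuous_finsetSum _ fun j _ => hc i j)]
  refine Finset.sum_congr rfl fun i _ => ?_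
  rw [ml_sum k _ (fun j _ => hc i j)]
  refine Finset.sum_congr rfl fun j _ => ?_
  rw [ml_mul_const, ml_mul_const, hess_ml k hw]

theorem cd_ml_c1 {w : E n → ℝ} (hw : ContDiff ℝ 1 w) : CD (fun k => ml k w) w := by
  have hcv : ∀ {g : E n → ℝ}, Continuous g → Cv (fun k => ml k g) g := by
    intro g hg
    refine ⟨fun k => (contDiff_ml k hg).continuous.aestronglyMeasurable,
      Eventually.of_forall fun x => tendsto_mol volume hg x, fun R => ?_⟩
    obtain ⟨B, hB⟩ := bdd_of_continuous hg (R + 2)
    exact ⟨B, fun k x hx => abs_ml_le k hB hx⟩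
  refine ⟨fun k => (contDiff_ml k hw.continuous).differentiable (by simp),
    Eventually.of_forall fun x => (hw.differentiable (by norm_num)) x, hcv hw.continuous,
    fun c => ?_⟩
  have h1 := hcv (contDiff_pd (k := 0) hw (by norm_num) c).continuous
  simp only [pd_ml _ hw]
  exact h1

theorem cd_ml_lip {w : E n → ℝ} {K : ℝ≥0} (hw : LipschitzWith K w) : CD (fun k => ml k w) w := by
  refine ⟨fun k => (contDiff_ml k hw.continuous).differentiable (by simp),
    hw.ae_differentiableAt, ⟨fun k => (contDiff_ml k hw.continuous).continuous.aestronglyMeasurable,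
      Eventually.of_forall fun x => tendsto_mol volume hw.continuous x, fun R => ?_⟩, fun c => ?_⟩
  · obtain ⟨B, hB⟩ := bdd_of_continuous hw.continuous (R + 2)
    exact ⟨B, fun k x hx => abs_ml_le k hB hx⟩
  · refine ⟨fun k => meas_pd _ c, ?_, fun R => ⟨K, fun k x _ => ?_⟩⟩
    · filter_upwards [ae_tendsto_fderiv_mol volume hw] with x hx
      exact ((ContinuousLinearMap.apply ℝ ℝ (ei c)).continuous.tendsto _).comp hx
    · exact (abs_pd_le_norm _ x c).trans (norm_fderiv_mol_le volume k hw x)

variable {ψ V : E n → ℝ} {c C M : ℝ}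

theorem mm_lip (h : MM ψ V c C M) (i j : Fin n) :
    LipschitzWith M.toNNReal (fun x => hess ψ x i j) := by
  refine LipschitzWith.of_dist_le_mul fun x y => ?_
  rw [Real.dist_eq, dist_eq_norm]
  refine (h.lip i j x y).trans ?_
  exact mul_le_mul_of_nonneg_right (by rw [Real.coe_toNNReal']; exact le_max_left _ _)
    (norm_nonneg _)

theorem cd_hess (h : MM ψ V c C M) (i j : Fin n) :
    CD (fun k x => hess (ml k ψ) x i j) (fun x => hess ψ x i j) := by
  have h1 := cd_ml_lip (mm_lip h i j)
  have h2 : (fun (k : ℕ) x => hess (ml k ψ) x i j) = fun k => ml k (fun x => hess ψ x i j) := by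
    funext k x
    exact hess_ml k h.C2 x i j
  rw [h2]
  exact h1

theorem cd_pd (h : MM ψ V c C M) (i : Fin n) :
    CD (fun k x => pd i (ml k ψ) x) (fun x => pd i ψ x) := by
  have h1 := cd_ml_c1 (w := pd i ψ) (contDiff_pd h.C2 (by norm_num) i)
  have h2 : (fun (k : ℕ) x => pd i (ml k ψ) x) = fun k => ml k (pd i ψ) := by
    funext k
    exact pd_ml k (h.C2.of_le (by norm_num)) i
  rw [h2]
  exact h1

theorem lower_ml (h : MM ψ V c C M) (k : ℕ) (x v : E n) :
    c * ‖v‖ ^ 2 ≤ qf (hess (ml k ψ) x) v := by
  rw [qf_ml k h.C2]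
  refine ml_ge k ?_ (fun y => h.lower y v) x
  exact continuous_finsetSum _ fun i _ => continuous_finsetSum _ fun j _ =>
    ((continuous_hess h.C2 i j).mul continuous_const).mul continuous_const

theorem upper_ml (h : MM ψ V c C M) (k : ℕ) (x v : E n) :
    qf (hess (ml k ψ) x) v ≤ C * ‖v‖ ^ 2 := by
  rw [qf_ml k h.C2]
  refine ml_le k ?_ (fun y => h.upper y v) x
  exact continuous_finsetSum _ fun i _ => continuous_finsetSum _ fun j _ =>
    ((continuous_hess h.C2 i j).mul continuous_const).mul continuous_const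

end Vale.Agent.P227.M.KL
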